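import Crest.Agent.PT.Parse

/-! More closure properties of polynomial time: equality, membership, slicing. -/

set_option autoImplicit false
set_option linter.dupNamespace false

namespace Crest.Agent.PT

open Polynomial

/-- Injective codes. -/
class EncInj (α : Type) [Enc α] : Prop where
  inj : Function.Injective (enc : α → List Bool)

lemma pr_inj {u v u' v' : List Bool} (h : pr u v = pr u' v') : u = u' ∧ v = v' := by
  induction u generalizing u' with
  | nil =>
    cases u' with
    | nil => simpa [pr] using h
    | cons b u' => simp [pr] at h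
  | cons a u ih =>
    cases u' with
    | nil => simp [pr] at h
    | cons b u' =>
      simp only [pr, dbl_cons, List.cons_append, List.cons.injEq, true_and] at h
      obtain ⟨h1, h2⟩ := ih h.2
      exact ⟨by rw [h.1, h1], h2⟩

instance : EncInj ℕ := ⟨fun a b h => by
  rw [← V_bits a, ← V_bits b]
  exact congrArg (fun l : List Bool => V 0 l.reverse) h⟩

instance {α β : Type} [Enc α] [Enc β] [EncInj α] [EncInj β] : EncInj (α × β) :=
  ⟨fun _ _ h => Prod.ext (EncInj.inj (pr_inj h).1) (EncInj.inj (pr_inj h).2)⟩

instance {α : Type} [Enc α] [EncInj α] : EncInj (List α) := ⟨by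
  intro a
  induction a with
  | nil =>
    intro b h
    cases b with
    | nil => rfl
    | cons y b => simp [enc_nil, enc_cons, pr] at h
  | cons x a ih =>
    intro b h
    cases b with
    | nil => simp [enc_nil, enc_cons, pr] at h
    | cons y b =>
      rw [enc_cons, enc_cons] at h
      rw [EncInj.inj (pr_inj h).1, ih (pr_inj h).2]⟩

lemma bits_V_one (l : List Bool) : (V 1 l).bits = l.reverse ++ [true] ∧ V 1 l ≠ 0 := by
  induction l using List.reverseRecOn with
  | nil => exact ⟨rfl, by simp⟩
  | append_singleton l b ih =>
    have e : V 1 (l ++ [b]) = Nat.bit b (V 1 l) := by simp [V]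
    rw [e, Nat.bits_append_bit _ _ fun h => absurd h ih.2, ih.1]
    refine ⟨by simp, ?_⟩
    have := ih.2
    rw [Nat.bit_val]; omega

variable {α β γ σ : Type} [Enc α] [Enc β] [Enc γ] [Enc σ]

lemma sz_perm {l l' : List α} (h : l.Perm l') : sz l = sz l' := by
  induction h with
  | nil => rfl
  | cons a _ ih => simp [ih]
  | swap a b l => simp; omega
  | trans _ _ h1 h2 => exact h1.trans h2

lemma sz_headD_le (l : List α) (d : α) : sz (l.headD d) ≤ sz l + sz d := by
  cases l with
  | nil => simp
  | cons a l => simp; omega

lemma PB.eval {t : α → ℕ} (h : PB t) (P : ℕ[X]) : PB fun a => P.eval (t a) := by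
  obtain ⟨Q, hQ⟩ := h
  exact ⟨P.comp Q, fun a => by simpa [eval_comp] using eval_mono P (hQ a)⟩

namespace PT

@[fun_prop] lemma deq [EncInj β] {f g : α → β} {inst : ∀ a, Decidable (f a = g a)} (hf : PT f)
    (hg : PT g) : PT fun a => @decide (f a = g a) (inst a) := by
  have h1 : PT fun a => V 1 (enc (f a)) := (const 1).toV (enc'.comp hf)
  have h2 : PT fun a => V 1 (enc (g a)) := (const 1).toV (enc'.comp hg)
  refine (h1.eq (inst := fun _ => inferInstance) h2).congr fun a => ?_
  rw [decide_eq_decide]
  refine ⟨fun h => EncInj.inj ?_, fun h => by rw [h]⟩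
  have := (bits_V_one (enc (f a))).1
  rw [h, (bits_V_one _).1] at this
  simpa using this.symm

@[fun_prop] lemma any {l : α → List β} {f : α → β → Bool} (hl : PT l)
    (hf : PT fun x : α × β => f x.1 x.2) : PT fun a => (l a).any (f a) :=
  (hl.filter hf).isEmpty.not.congr fun a => by
    induction l a with
    | nil => rfl
    | cons b l ih => cases h : f a b <;> simp_all

@[fun_prop] lemma all {l : α → List β} {f : α → β → Bool} (hl : PT l)
    (hf : PT fun x : α × β => f x.1 x.2) : PT fun a => (l a).all (f a) :=
  (hl.any (f := fun a b => !f a b) hf.not).not.congr fun a => by simp [List.all_eq_not_any_not]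

@[fun_prop] lemma mem [EncInj β] {f : α → β} {l : α → List β}
    {inst : ∀ a, Decidable (f a ∈ l a)} (hf : PT f) (hl : PT l) :
    PT fun a => @decide (f a ∈ l a) (inst a) := by
  classical
  exact (hl.any (f := fun a b => decide (f a = b)) (by fun_prop)).congr fun a => by
    rw [Bool.eq_iff_iff]; simp

@[fun_prop] lemma drop {l : α → List β} {n : α → ℕ} (hl : PT l) (hn : PT n) :
    PT fun a => (l a).drop (n a) := by
  have key : ∀ (L : List β) (k : ℕ) (r : List β), r.length ≤ L.length →
      (L.foldl (fun (s : ℕ × List β) _ => if s.1 = 0 then s else (s.1 - 1, s.2.tail)) (k, r)).2 =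
        r.drop k := by
    intro L
    induction L with
    | nil =>
      intro k r h
      obtain rfl : r = [] := by simpa using h
      simp
    | cons b L ih =>
      intro k r h
      cases k with
      | zero =>
        have : ∀ (L : List β), (L.foldl (fun (s : ℕ × List β) _ =>
            if s.1 = 0 then s else (s.1 - 1, s.2.tail)) (0, r)) = (0, r) := by
          intro L
          induction L with
          | nil => rfl
          | cons b L ih => simpa using ih
        rw [this]; rfl
      | succ k =>
        have := ih k r.tail (by simp at h ⊢; omega)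
        simpa using this
  refine (foldl_add (f := fun _ (s : ℕ × List β) (_ : β) =>
    if s.1 = 0 then s else (s.1 - 1, s.2.tail)) (by fun_prop) hl (hn.pair hl) (g := fun _ _ => 0)
    (by fun_prop) fun _ s _ => ?_).snd.congr fun a => key _ _ _ le_rfl
  obtain ⟨k, r⟩ := s
  have := sz_tail_le r
  have := sz_nat_mono (Nat.sub_le k 1)
  split_ifs <;> simp
  omega

@[fun_prop] lemma take {l : α → List β} {n : α → ℕ} (hl : PT l) (hn : PT n) :
    PT fun a => (l a).take (n a) :=
  (hl.reverse.drop (hl.length.sub hn)).reverse.congr fun a => by
    rw [List.drop_reverse, List.reverse_reverse]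
    rcases le_total (n a) (l a).length with h | h
    · congr 1; omega
    · rw [List.take_of_length_le h, List.take_of_length_le (by omega)]

@[fun_prop] lemma getD {l : α → List β} {n : α → ℕ} {d : α → β} (hl : PT l) (hn : PT n)
    (hd : PT d) : PT fun a => (l a).getD (n a) (d a) :=
  ((hl.drop hn).headD hd).congr fun a => by simp [List.getD_eq_getElem?_getD]

@[fun_prop] lemma dropLast {l : α → List β} (hl : PT l) : PT fun a => (l a).dropLast :=
  hl.reverse.tail.reverse.congr fun a => by simp

end PT

end Crest.Agent.PT
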